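import Mathlib
import Vale.Agent.P038.Main

/-! P038: the second neighbourhood conjecture is equivalent to its asymptotic version with an
additive error `ε n`, in arbitrarily large order. -/

namespace Vale.Agent.Results.P038.Asymptotic

open _root_.P038

/-- The second neighbourhood conjecture holds if and only if for every `ε > 0` there are
arbitrarily large `N` such that every oriented graph with `N` vertices has a vertex `v` with
`|N1 v| ≤ |N2 v| + ε N`. -/
theorem result :
    SNC ↔ ∀ ε : ℝ, 0 < ε → ∀ N₀ : ℕ, ∃ N ≥ N₀, ∀ (V : Type) [Finite V] (A : V → V → Prop),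
      Nat.card V = N → Oriented A →
        ∃ v, ((N1 A v).ncard : ℝ) ≤ (N2 A v).ncard + ε * N := by
  constructor
  · intro h ε hε N₀
    refine ⟨N₀ + 1, Nat.le_succ _, ?_⟩
    intro V _ A hV hA
    have hne : Nonempty V := (Nat.card_pos_iff.1 (by omega)).1
    obtain ⟨v, hv⟩ := h V A hA
    refine ⟨v, ?_⟩
    have h1 : ((N1 A v).ncard : ℝ) ≤ (N2 A v).ncard := by exact_mod_cast hv
    have h2 : 0 ≤ ε * ((N₀ + 1 : ℕ) : ℝ) := by positivity
    linarith
  · exact snc_of_asymptotic

end Vale.Agent.Results.P038.Asymptotic
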